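import Vale.Agent.P275OP.Pkg
import Vale.Agent.P275LO.LH
import Vale.Agent.P275S.Htpy

/-! The trace morphism of a Leray-Hirsch fibration. -/

open CategoryTheory Topology Set Function P275S Vale.Agent.P275LO

noncomputable section

set_option backward.isDefEq.respectTransparency false

namespace P275OP

variable {X B E E' : TopCat.{0}} {ι : Type} [Fintype ι]

theorem nice_cl [Nice B] {a : X ⟶ B} (ha : IsClosedEmbedding a) : Nice X :=
  ⟨ha.locallyCompactSpace, ha.isEmbedding.t2Space, ha.isEmbedding.secondCountableTopology⟩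

theorem Car.lhb {p : E ⟶ B} {s : X ⟶ B} {π : E' ⟶ X} {k : E' ⟶ E} (q : Car p s π k)
    {c : ι → H ℂ E} (h : LHB p c) : LHB π fun j => pb k (c j) := by
  have sq : ∀ z, s (π z) = p (k z) := fun z => congrArg (fun f => f z) q.sq
  let u : E' ≃ₜ p ⁻¹' range s := q.ek.toHomeomorph.trans (Homeomorph.setCongr q.rng)
  refine ⟨?_, fun y => ?_⟩
  · have : ⇑π = q.es.toHomeomorph.symm ∘ (range s).restrictPreimage p ∘ u := funext fun z =>
      (q.es.toHomeomorph.eq_symm_apply).2 (Subtype.ext (sq z))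
    rw [this]
    exact q.es.toHomeomorph.symm.isProperMap.comp
      ((h.pr.restrictPreimage _).comp u.isProperMap)
  · obtain ⟨F, i, hi, hr, hb⟩ := h.bas (s y)
    have hm : ∀ z, i z ∈ p ⁻¹' range s := fun z => ⟨y, (hr.subset ⟨z, rfl⟩).symm⟩
    let i' : F ⟶ E' := TopCat.ofHom ⟨fun z => u.symm ⟨i z, hm z⟩,
      u.symm.continuous.comp (i.hom.continuous.subtype_mk _)⟩
    have e : ∀ z, k (i' z) = i z := fun z => congrArg Subtype.val (u.apply_symm_apply ⟨i z, hm z⟩)
    have e' : i' ≫ k = i := by ext z; exact e z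
    refine ⟨F, i', IsInducing.of_comp i'.hom.continuous k.hom.continuous
      (by rw [show ⇑k ∘ ⇑i' = i from funext e]; exact hi), ?_, ?_⟩
    · ext w
      constructor
      · rintro ⟨z, rfl⟩
        exact q.es.injective ((sq _).trans ((congrArg p (e z)).trans (hr.subset ⟨z, rfl⟩)))
      · intro hw
        obtain ⟨z, hz⟩ := hr.superset (show p (k w) = s y from (sq w).symm.trans (congrArg s hw))
        exact ⟨z, q.ek.injective ((e z).trans hz)⟩
    · simpa only [pb_comp, e'] using hb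

theorem mul_mul (π : E' ⟶ X) (a b : H ℂ E') : mul π (a * b) = mul π b ≫ mul π a :=
  map_mul (mul π) a b

theorem phi_mul (π : E' ⟶ X) (c : H ℂ E') (a : H ℂ X) :
    pullI ℂ π ≫ mul π (c * pb π a) = a ≫ pullI ℂ π ≫ mul π c := by
  rw [mul_mul, ← Category.assoc, pullI_mul, Category.assoc]

theorem LHB.split [Nice E] [Nice B] {p : E ⟶ B} {c : ι → H ℂ E} (h : LHB p c) (d : ι → ℤ)
    (hc : ∀ i, c i ∈ Hd ℂ E (d i)) : ∃ ψ : ι → (K ℂ p ⟶ IK ℂ B),
      (∀ i, ψ i ∈ KG.deg ℂ _ _ (-d i)) ∧ (∀ i, (pullI ℂ p ≫ mul p (c i)) ≫ ψ i = 𝟙 _) ∧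
      (∀ i j, i ≠ j → (pullI ℂ p ≫ mul p (c i)) ≫ ψ j = 0) ∧
      ∑ i, ψ i ≫ pullI ℂ p ≫ mul p (c i) = 𝟙 _ := by
  refine sum_iso (A := fun _ => IK ℂ B) (fun _ => injC_I ℂ B) (injC_K p) d
    (fun j => pullI ℂ p ≫ mul p (c j))
    (fun j => KG.comp_mem_deg (zero_add _) (pullI_mem p) (mul_mem p (hc j))) fun a => ?_
  obtain ⟨P, i, hi, hr, hb⟩ := h.bas a
  obtain ⟨f, hf⟩ := ex_fib (k := ℂ) h.pr a hi hr
  rw [← Bijective.of_comp_iff' f.bijective, ← Bijective.of_comp_iff _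
    (Bijective.piMap fun _ : ι => stalk_one (k := ℂ) a)]
  refine (congrArg Bijective (funext fun r => ?_)).mpr hb
  simp only [comp_apply, map_sum, Pi.map_apply, Linear.smul_comp, map_smul]
  refine Finset.sum_congr rfl fun j _ => congrArg _ ?_
  rw [← hf, ← germ_comp, ← Category.assoc, unit_pullI, evK_apply]

/-- The trace: the coefficient of the top class. -/
theorem exists_tr [Nice E] [Nice B] [Nice E'] [Nice X] {p : E ⟶ B} {s : X ⟶ B} {π : E' ⟶ X}
    {k : E' ⟶ E} (q : Car p s π k) {c : ι → H ℂ E} (h : LHB p c) (d : ι → ℤ)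
    (hc : ∀ i, c i ∈ Hd ℂ E (d i)) (t : ι) (G : H ℂ E →ₗ[ℂ] H ℂ B)
    (G1 : ∀ v a, G (v * pb p a) = G v * a) (G2 : G (c t) = 1) (G3 : ∀ j, j ≠ t → G (c j) = 0) :
    ∃ ψ : K ℂ π ⟶ K ℂ (𝟙 X), ψ ∈ KG.deg ℂ _ _ (-d t) ∧
      (∀ a ∈ Hd ℂ X 2, mul π (pb π a) ≫ ψ = ψ ≫ a) ∧
      (∀ v, pullI ℂ π ≫ mul π (pb k v) ≫ ψ = pb s (G v)) ∧ ∀ v, act ψ (pb k v) = pb s (G v) := by
  classical
  obtain ⟨ψ, m, h1, h2, h3⟩ := (q.lhb h).split d fun i => pb_mem k (hc i)
  have key : ∀ v, pullI ℂ π ≫ mul π (pb k v) ≫ ψ t = pb s (G v) := fun v => by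
    obtain ⟨a, rfl⟩ := (lh h.pr c d hc h.bas).2 v
    have e : ∀ j, pb k (c j * pb p (a j)) = pb k (c j) * pb π (pb s (a j)) := fun j => by
      rw [map_mul, pb_comp, pb_comp, q.sq]
    simp only [map_sum, e, G1]
    rw [← Category.assoc, Preadditive.comp_sum, Preadditive.sum_comp, Finset.sum_eq_single t,
      Finset.sum_eq_single t, phi_mul, Category.assoc, h1, G2, one_mul]
    · exact Category.comp_id _
    · exact fun j _ hj => by rw [G3 j hj, zero_mul, map_zero]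
    · exact fun h => (h (Finset.mem_univ t)).elim
    · exact fun j _ hj => by rw [phi_mul, Category.assoc, h2 j t hj, Limits.comp_zero]
    · exact fun h => (h (Finset.mem_univ t)).elim
  refine ⟨ψ t, m t, fun a ha => ?_, key, fun v => ?_⟩
  · have e : ∀ j, (pullI ℂ π ≫ mul π (pb k (c j))) ≫ mul π (pb π a) =
        a ≫ pullI ℂ π ≫ mul π (pb k (c j)) := fun j => by
      rw [← phi_mul, ← (commute_of_even (pb_mem π ha) even_two _).eq, mul_mul, Category.assoc]
    rw [← Category.id_comp (mul π (pb π a) ≫ _), ← h3, Preadditive.sum_comp,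
      Finset.sum_eq_single t, Category.assoc, ← Category.assoc (pullI ℂ π ≫ _), e,
      Category.assoc, h1]
    · exact congrArg _ (Category.comp_id _)
    · exact fun j _ hj => by
        rw [Category.assoc, ← Category.assoc (pullI ℂ π ≫ _), e, Category.assoc, h2 j t hj,
          Limits.comp_zero, Limits.comp_zero]
    · exact fun h => (h (Finset.mem_univ t)).elim
  · refine (evK (𝟙 X)).injective ?_
    rw [evK_act, evK_id, evI_apply, ← key, evK_apply, ← unit_pullI]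
    simp only [Category.assoc]

end P275OP
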