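import Vale.Agent.P275OP.Oper

/-! The Hecke map is unipotent on the cohomology of the total space. -/

open CategoryTheory Function P275S Polynomial

noncomputable section

set_option backward.isDefEq.respectTransparency false

namespace P275OP.Pkg

variable {Z V : TopCat.{0}} {h : Z ⟶ V} {α : H ℂ Z} (Q : Pkg h α)

theorem unip (inj : Injective (pb (k := ℂ) Q.iR)) : ∃ m : ℕ, (Q.Ψ - 1) ^ m = 0 := by
  obtain ⟨U, -, ⟨m, Um⟩, -, U2⟩ := Q.exists_U
  have e : (1 - Q.Ψ) ^ m = 0 := LinearMap.ext fun w => inj (by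
    have := aeval_int (v := actA Q.g U) (pb Q.iR).toLinearMap U2 ((1 - X) ^ m) w
    have e1 : aeval U ((1 - X) ^ m : ℂ[X]) = 0 := by
      rw [map_pow, map_sub, map_one, aeval_X, Um]
    have e2 : aeval Q.Ψ ((1 - X) ^ m : ℂ[X]) = (1 - Q.Ψ) ^ m := by
      rw [map_pow, map_sub, map_one, aeval_X]
    rw [aeval_algHom_apply, e1, e2, map_zero] at this
    exact this.symm.trans (map_zero _).symm)
  exact ⟨m, by rw [← neg_sub, neg_pow, e, mul_zero]⟩

/-- The form without inverse. -/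
theorem unip' (inj : Injective (pb (k := ℂ) Q.iR)) : ∃ m : ℕ, ∀ U : Module.End ℂ (H ℂ Q.T),
    (∀ w, pb Q.Φ (pb Q.jT w) = pb Q.jT (U w)) → (U - 1) ^ m = 0 := by
  obtain ⟨m, hm⟩ := Q.unip inj
  refine ⟨m, fun U hU => ?_⟩
  rwa [show U = Q.Ψ from LinearMap.ext fun w => Q.bijT.1 ((hU w).symm.trans (Q.Ψ_spec w))]

end P275OP.Pkg
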