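import Vale.Agent.P275OP.Sup

/-! Gysin morphisms of closed embeddings. -/

open CategoryTheory Limits TopologicalSpace Topology CochainComplex CochainComplex.HomComplex
open P275S P275RS P275PV

noncomputable section

set_option backward.isDefEq.respectTransparency false

namespace P275OP

variable {k : Type} [Field k] {X Y Z Y' Z' W : TopCat.{0}}

/-- Equal maps have the same direct image. -/
def kq {h h' : X ⟶ Y} (e : h = h') : K k h ⟶ K k h' := eqToHom (congrArg (K k) e)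

theorem kq_self {h : X ⟶ Y} (e : h = h) : kq e = 𝟙 (K k h) := rfl

theorem kq_mem {h h' : X ⟶ Y} (e : h = h') : kq e ∈ KG.deg k (K k h) (K k h') 0 := by
  subst e; exact KG.id_mem_deg _

@[reassoc] theorem kq_kq {h h' h'' : X ⟶ Y} (e : h = h') (e' : h' = h'') :
    (kq e : K k h ⟶ _) ≫ kq e' = kq (e.trans e') := by
  subst e e'; exact Category.id_comp _

@[reassoc] theorem mul_kq {h h' : X ⟶ Y} (e : h = h') (a : H k X) :
    mul h a ≫ kq e = kq e ≫ mul h' a := by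
  subst e; exact (Category.comp_id _).trans (Category.id_comp _).symm

theorem act_kq {h h' : X ⟶ Y} (e : h = h') (a : H k X) : act (kq e : K k h ⟶ _) a = a := by
  subst e; exact act_id h a

@[reassoc] theorem pullI_kq {h h' : X ⟶ Y} (e : h = h') : pullI k h ≫ kq e = pullI k h' := by
  subst e; exact Category.comp_id _

theorem push_kq {h h' : X ⟶ Y} (e : h = h') (g : Y ⟶ Z) :
    (pushK k g).map (kq e : K k h ⟶ _) = kq (congrArg (· ≫ g) e) := by
  subst e; exact (pushK k g).map_id _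

instance {h h' : X ⟶ Y} (e : h = h') : IsIso (kq e : K k h ⟶ _) :=
  inferInstanceAs (IsIso (eqToHom _))

theorem exists_adj (f : Y' ⟶ Y) {J : KG k (Sh k Y')} (hJ : InjC J.c) {n : ℤ}
    {g : IK k Y ⟶ (pushK k f).obj J} (hg : g ∈ KG.deg k _ _ n) :
    ∃ t ∈ KG.deg k (IK k Y') J n, pullI k f ≫ (pushK k f).map t = g := by
  obtain ⟨x, hx⟩ := (cU_bijective f J).2 (unit k Y ≫ g)
  obtain ⟨t, rfl⟩ := (unit_bijective hJ).2 x
  have e : pullI k f ≫ (pushK k f).map t = g := unit_cancel (hJ.push f) (by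
    rw [← Category.assoc, unit_pullI, uK, Category.assoc, ← Functor.map_comp]; exact hx)
  refine ⟨KG.pr n t, KG.pr_mem_deg n t, ?_⟩
  rw [KG.map_pr]
  exact (KG.pr_comp_of_left (zero_add n) (pullI_mem f) _).symm.trans
    ((congrArg _ e).trans (KG.pr_of_mem hg))

/-- `γ` is a Gysin morphism for `i` with the class `a`. -/
structure Gy (i : Z ⟶ Y) (a : H k Y) (n : ℤ) (γ : K k i ⟶ K k (𝟙 Y)) : Prop where
  mem : γ ∈ KG.deg k _ _ n
  pull : pullI k i ≫ γ = a
  back : γ ≫ pullI k i = mul i (pb i a)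
  prj : ∀ b : H k Y, mul i (pb i b) ≫ γ = γ ≫ b

theorem emb_cancel {i : Z ⟶ Y} (hi : IsInducing i) {B : KG k (Sh k Y)}
    (hB : On (Set.range i) B.c) {w w' : K k i ⟶ B} (e : pullI k i ≫ w = pullI k i ≫ w') :
    w = w' :=
  hB.cancel (φ := pullC k i) (by rintro _ ⟨y, rfl⟩; exact qisAt_pullC hi y) e

theorem exists_gy [Nice Y] {i : Z ⟶ Y} (hi : IsClosedEmbedding i) {S : Set Y}
    (hS : Set.range i = S) {N : ℕ} {τ : IK k Y ⟶ (gK k S).obj (IK k Y)}
    (hτ : τ ∈ KG.deg k _ _ ((2 * N : ℕ) : ℤ)) : ∃ γ : K k i ⟶ (gK k S).obj (IK k Y),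
      pullI k i ≫ γ = τ ∧ Gy i (τ ≫ ιK S _) (2 * N : ℕ) (γ ≫ ιK S (IK k Y)) := by
  subst hS
  have hJ := on_gK hi.isClosed_range (A := IK k Y) (injC_I k Y)
  obtain ⟨γ, hγ, e⟩ := hJ.lift (φ := pullC k i)
    (by rintro _ ⟨y, rfl⟩; exact qisAt_pullC hi.isInducing y) hτ
  have e : pullI k i ≫ γ = τ := e
  refine ⟨γ, e, KG.comp_mem_deg (add_zero _) hγ (ιK_mem _), by rw [reassoc_of% e], ?_, fun b => ?_⟩
  · refine emb_cancel hi.isInducing
      (on_push i hi.isClosed_range (fun x => ⟨x, rfl⟩) (injC_I k Z)) ?_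
    rw [pullI_mul, Category.assoc, reassoc_of% e, Category.assoc]
  · have : mul i (pb i b) ≫ γ = γ ≫ (gK k _).map b := emb_cancel hi.isInducing hJ (by
      rw [← Category.assoc, pullI_mul, Category.assoc, e, reassoc_of% e]
      exact sup_comm hi.isClosed_range hτ b)
    rw [reassoc_of% this, Category.assoc]
    exact congrArg (γ ≫ ·) (ιK_nat b)

/-- Pull-back of sections with support. -/
def psC (f : Y' ⟶ Y) (S : Set Y) {G : Cx k Y} {F : Cx k Y'} (φ : G ⟶ (pushC k f).obj F) :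
    (mapC (GamS k S)).obj G ⟶ (pushC k f).obj ((mapC (GamS k (f ⁻¹' S))).obj F) where
  f n := mkHom (fun U => (app ((suppData S (G.X n)).ι ≫ φ.f n) U).codRestrict
      (suppIn (F.X n) (f ⁻¹' S) ((Opens.map f).obj U)) fun s x hx => by_contra fun hn => by
        obtain ⟨V, hV, xV, h0⟩ := (not_mem_supp (s := app (suppData S (G.X n)).ι U s) hx.1).1
          fun a => hn ((suppData S _).ι_mem U s a)
        exact hx.2 ((Opens.map f).obj V) (map_le f hV) xV ((app_res (φ.f n) hV _).symm.trans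
          ((congrArg (app (φ.f n) V) h0).trans (map_zero _))))
    fun _ _ hV s => Subtype.ext (app_res ((suppData S (G.X n)).ι ≫ φ.f n) hV s)
  comm' i j _ := hom_ext fun U s => Subtype.ext
    (congrArg (fun t => app t U (app (suppData S (G.X i)).ι U s)) (φ.comm i j))

theorem psC_ι (f : Y' ⟶ Y) (S : Set Y) :
    KG.hom k (psC f S (pullC k f)) ≫ (pushK k f).map (ιK (f ⁻¹' S) (IK k Y')) =
      ιK S (IK k Y) ≫ pullI k f := by
  have e : psC f S (pullC k f) ≫ (pushC k f).map (ιC (f ⁻¹' S) (I k Y')) =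
      ιC S (I k Y) ≫ pullC k f := by
    ext n
    exact hom_ext fun _ _ => rfl
  have := congrArg (KG.hom k) e
  rw [KG.hom_comp, KG.hom_comp, ← KG.map_hom] at this
  exact this

theorem gy_bc {i : Z ⟶ Y} (hi : IsClosedEmbedding i) {f : Y' ⟶ Y} {i' : Z' ⟶ Y'} {g : Z' ⟶ Z}
    (c : g ≫ i = i' ≫ f) {J : KG k (Sh k Y')} (hJ : On (f ⁻¹' Set.range i) J.c)
    {γ : K k i ⟶ (pushK k f).obj J} {γ' : K k i' ⟶ J}
    (e : pullI k f ≫ (pushK k f).map (pullI k i' ≫ γ') = pullI k i ≫ γ) :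
    γ = pull k g i ≫ kq c ≫ (pushK k f).map γ' := by
  refine emb_cancel hi.isInducing (hJ.push f hi.isClosed_range fun _ h => h) ?_
  have e1 : pullI k i ≫ pull k g i ≫ kq c = pullI k f ≫ pull k i' f := by
    rw [← Category.assoc, pullI_comp, pullI_kq, pullI_comp]
  rw [← e, reassoc_of% e1, Functor.map_comp]
  rfl

theorem act_bc {i : Z ⟶ Y} {f : Y' ⟶ Y} {i' : Z' ⟶ Y'} {g : Z' ⟶ Z} (c : g ≫ i = i' ≫ f)
    {γ : K k i ⟶ K k (𝟙 Y)} {γ' : K k i' ⟶ K k (𝟙 Y')}
    (e : γ ≫ pullI k f = pull k g i ≫ kq c ≫ (pushK k f).map γ') (b : H k Z) :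
    pb f (act γ b) = act γ' (pb g b) := by
  have e1 := act_comp (h'' := f ≫ 𝟙 Y) γ (pull k f (𝟙 Y)) b
  have e2 := act_comp (h'' := 𝟙 Y' ≫ f) (pull k g i) (kq c ≫ (pushK k f).map γ') b
  have e3 := act_comp (h'' := 𝟙 Y' ≫ f) (kq c) ((pushK k f).map γ') (pb g b)
  rw [act_pull, pull_base_id, e] at e1
  rw [act_pull, e3, act_kq, act_push] at e2
  exact e1.symm.trans e2

/-- A class of even degree which vanishes on the complement of a closed subspace defines Gysin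
morphisms, compatible with base change. -/
theorem gys [Nice Y] {i : Z ⟶ Y} (hi : IsClosedEmbedding i) {j : X ⟶ Y} (hj : IsInducing j)
    (hr : Set.range j = (Set.range i)ᶜ) {N : ℕ} {a : H k Y} (ha : a ∈ Hd k Y (2 * N : ℕ))
    (h0 : pb j a = 0) : ∃ γ, Gy i a (2 * N : ℕ) γ ∧
      ∀ (Y' Z' : TopCat.{0}) [Nice Y'] (f : Y' ⟶ Y) (i' : Z' ⟶ Y') (g : Z' ⟶ Z),
        IsClosedEmbedding i' → Set.range i' = f ⁻¹' Set.range i → g ≫ i = i' ≫ f →
        ∃ γ', Gy i' (pb f a) (2 * N : ℕ) γ' ∧ ∀ b, pb f (act γ b) = act γ' (pb g b) := by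
  obtain ⟨τ, hτ, rfl⟩ := exists_sup hi.isClosed_range hj hr ha h0
  obtain ⟨γ, e, G⟩ := exists_gy hi rfl hτ
  refine ⟨_, G, fun Y' Z' _ f i' g hi' hr' c => ?_⟩
  have hJ := on_gK (hr' ▸ hi'.isClosed_range) (A := IK k Y') (injC_I k Y')
  obtain ⟨τ', hτ', e1⟩ := exists_adj f hJ.1
    (KG.comp_mem_deg (add_zero _) hτ (KG.hom_mem_deg (psC f _ (pullC k f))))
  obtain ⟨γ', e', G'⟩ := exists_gy hi' hr' hτ'
  have p := psC_ι (k := k) f (Set.range i)
  generalize KG.hom k (psC f (Set.range i) (pullC k f)) = ψ at e1 p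
  have e2 : (τ' ≫ ιK _ _ : H k Y') = pb f (τ ≫ ιK _ _) := pullI_mul_inj f (by
    rw [pullI_mul, mul_def, Functor.map_comp, reassoc_of% e1, p, Category.assoc])
  refine ⟨_, e2 ▸ G', act_bc c ?_⟩
  have e3 := gy_bc hi c hJ (γ := γ ≫ ψ) (γ' := γ') (by rw [e', e1, reassoc_of% e])
  rw [Category.assoc, ← p, reassoc_of% e3, Functor.map_comp]

end P275OP
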