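import Vale.Agent.P275OP.Coef
import Vale.Agent.P275LO.Nilp
import Vale.Agent.P275S.Fib

/-! The operator `D` and the formula for its action on cohomology. -/

open CategoryTheory Topology Set Function P275S P275RS Polynomial

noncomputable section

set_option backward.isDefEq.respectTransparency false

namespace P275OP

section sandwich

variable {C : Type*} [Category C] [Preadditive C] [Linear ℂ C] {A B : C}

/-- The sandwich. -/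
def sw (L : A ⟶ B) (M : B ⟶ A) : End B →ₗ[ℂ] End A :=
  Linear.leftComp ℂ A L ∘ₗ Linear.rightComp ℂ B M

theorem sw_apply (L : A ⟶ B) (M : B ⟶ A) (z : End B) : sw L M z = L ≫ z ≫ M := rfl

theorem sw_lie {L : A ⟶ B} {M : B ⟶ A} {x : End A} {y : End B} (h1 : x ≫ L = L ≫ y)
    (h2 : y ≫ M = M ≫ x) (z : End B) : ⁅x, sw L M z⁆ = sw L M ⁅y, z⁆ := by
  rw [Ring.lie_def, Ring.lie_def, map_sub]
  refine congrArg₂ (· - ·) ?_ ?_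
  · show (L ≫ z ≫ M) ≫ x = L ≫ (z ≫ y) ≫ M
    simp only [Category.assoc, h2]
  · show x ≫ L ≫ z ≫ M = L ≫ (y ≫ z) ≫ M
    rw [reassoc_of% h1, Category.assoc]

/-- Conjugation. -/
def cj (L : A ⟶ B) [IsIso L] : End B →ₐ[ℂ] End A :=
  AlgHom.ofLinearMap (sw L (inv L)) ((congrArg (L ≫ ·) (Category.id_comp _)).trans
    (IsIso.hom_inv_id L)) fun x y => by
      show L ≫ (y ≫ x) ≫ inv L = (L ≫ y ≫ inv L) ≫ L ≫ x ≫ inv L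
      simp

end sandwich

theorem aeval_mem {Y : TopCat.{0}} {A : KG ℂ (Sh ℂ Y)} {U : End A} (hU : U ∈ KG.deg ℂ A A 0)
    (q : ℂ[X]) : aeval U q ∈ KG.deg ℂ A A 0 := by
  induction q using Polynomial.induction_on with
  | C a =>
    rw [aeval_C, Algebra.algebraMap_eq_smul_one]
    exact Submodule.smul_mem _ _ (KG.id_mem_deg _)
  | add f g hf hg => rw [map_add]; exact add_mem hf hg
  | monomial n a hn =>
    rw [pow_succ, ← mul_assoc, map_mul, aeval_X]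
    exact KG.comp_mem_deg (add_zero 0) hU hn

theorem aeval_int {M N : Type} [AddCommGroup M] [Module ℂ M] [AddCommGroup N] [Module ℂ N]
    (f : M →ₗ[ℂ] N) {u : Module.End ℂ M} {v : Module.End ℂ N} (e : ∀ x, v (f x) = f (u x))
    (q : ℂ[X]) (x : M) : aeval v q (f x) = f (aeval u q x) := by
  induction q using Polynomial.induction_on generalizing x with
  | C a => simp
  | add f g hf hg => simp [hf, hg]
  | monomial n a hn =>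
    rw [pow_succ, ← mul_assoc, map_mul, map_mul (aeval u), aeval_X, aeval_X,
      Module.End.mul_apply, Module.End.mul_apply, e, hn]

theorem aeval_low {M : Type} [AddCommGroup M] [Module ℂ M] {u : Module.End ℂ M}
    {W : ℤ → Submodule ℂ M} (mono : ∀ k, W (k - 2) ≤ W k)
    (hk : ∀ k, ∀ x ∈ W k, u x - x ∈ W (k - 2)) {q : ℂ[X]} (hq : (1 - X) * (1 - X) ∣ q) (k : ℤ)
    {x : M} (hx : x ∈ W k) : aeval u q x ∈ W (k - 4) := by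
  obtain ⟨q, rfl⟩ := hq
  have h1 : ∀ k, ∀ x ∈ W k, aeval u (1 - X : ℂ[X]) x ∈ W (k - 2) := fun k x hx => by
    simpa using neg_mem (hk k x hx)
  have h2 : aeval u q x ∈ W k := by
    refine aeval_apply_smul_mem_of_le_comap hx q u fun y hy => ?_
    simpa using add_mem (mono k (hk k y hy)) hy
  rw [map_mul, map_mul, Module.End.mul_apply, Module.End.mul_apply,
    show k - 4 = k - 2 - 2 by ring]
  exact h1 _ _ (h1 _ _ h2)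

section push

variable {X Z V : TopCat.{0}}

theorem pullo_base (f : Z ⟶ X) : pullo ℂ f (Category.comp_id f) = pullI ℂ f :=
  (pullo_rfl f (𝟙 X)).trans (pull_base_id f)

theorem push_tr {π : Z ⟶ X} (ψ : K ℂ π ⟶ K ℂ (𝟙 X)) (h : X ⟶ V) {h' : Z ⟶ V}
    (e : π ≫ h = h') : ∃ t : K ℂ h' ⟶ K ℂ h,
      (∀ n, ψ ∈ KG.deg ℂ _ _ n → t ∈ KG.deg ℂ _ _ n) ∧
      (∀ (a : H ℂ X) b, mul π b ≫ ψ = ψ ≫ a → mul h' b ≫ t = t ≫ mul h a) ∧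
      (∀ (a : H ℂ X) b, pullI ℂ π ≫ mul π b ≫ ψ = a → pullo ℂ π e ≫ mul h' b ≫ t = mul h a) ∧
      (∀ b, ψ ≫ pullI ℂ π = mul π b → t ≫ pullo ℂ π e = mul h' b) ∧
      ∀ b, act t b = act ψ b := by
  have e1 := Category.id_comp h
  have e2 := pusho_pullo (k := ℂ) h π (Category.comp_id π) e1 e e
  rw [pullo_base] at e2
  refine ⟨pusho h e e1 ψ, fun n => pusho_mem h e e1, fun a b q => ?_, fun a b q => ?_,
    fun b q => ?_, act_pusho h e e1 ψ⟩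
  · rw [← pusho_mul h e, ← pusho_mul h e1, ← pusho_comp, ← pusho_comp, mul_id]
    exact congrArg _ q
  · rw [← pusho_mul h e, ← pusho_mul h e1, ← e2, ← pusho_comp, ← pusho_comp, mul_id]
    exact congrArg _ q
  · rw [← pusho_mul h e, ← e2, ← pusho_comp]
    exact congrArg _ q

end push

namespace Pkg

variable {X V : TopCat.{0}} {h : X ⟶ V} {α : H ℂ X} (Q : Pkg h α)

/-- The action of the Hecke map on the cohomology of the total space. -/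
def Ψ : Module.End ℂ (H ℂ Q.T) :=
  (LinearEquiv.ofBijective (pb Q.jT).toLinearMap Q.bijT).symm.toLinearMap ∘ₗ
    (pb Q.Φ).toLinearMap ∘ₗ (pb Q.jT).toLinearMap

theorem Ψ_spec (w : H ℂ Q.T) : pb Q.Φ (pb Q.jT w) = pb Q.jT (Q.Ψ w) :=
  ((LinearEquiv.ofBijective (pb Q.jT).toLinearMap Q.bijT).apply_symm_apply _).symm

theorem exists_U : ∃ U : End (K ℂ Q.g), U ∈ KG.deg ℂ _ _ 0 ∧ (∃ m : ℕ, (1 - U) ^ m = 0) ∧
    (∀ w w', pb Q.Φ (pb Q.jT w) = pb Q.jT w' →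
      U * mul Q.g (pb Q.iR w) = mul Q.g (pb Q.iR w') * U) ∧
    ∀ w, act U (pb Q.iR w) = pb Q.iR (Q.Ψ w) := by
  have := Q.isoR
  obtain ⟨m, hm⟩ := Vale.Agent.P275LO.nilp (k := ℂ) Q.jR Q.g Q.prg Q.embR Q.opO Q.rngR Q.ΦR Q.Φg
    Q.b Q.fib
  have e : ∀ w w' : H ℂ Q.T, pb Q.Φ (pb Q.jT w) = pb Q.jT w' →
      pb Q.ΦR (pb Q.jR (pb Q.iR w)) = pb Q.jR (pb Q.iR w') := fun w w' e => by
    rw [pb_comp Q.jR, pb_comp Q.jR, ← Q.sqR, ← pb_comp Q.kR, ← pb_comp Q.kR, pb_comp Q.ΦR, Q.sqΦ,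
      ← pb_comp, e]
  let L := pullE ℂ Q.jR Q.g (Q.jR ≫ Q.g) rfl
  have l1 : ∀ a, L ≫ mul (Q.jR ≫ Q.g) (pb Q.jR a) = mul Q.g a ≫ L := pullE_mul _ _ _ _
  have l2 : ∀ a, act L a = pb Q.jR a := act_pullE _ _ _ _
  have l3 : L ∈ KG.deg ℂ _ _ 0 := pullE_mem _ _ _ _
  have : IsIso L := isIso_pullE _ _ _ _
  have p1 := pullE_mul (k := ℂ) Q.ΦR _ _ Q.Φg
  have p2 := act_pullE (k := ℂ) Q.ΦR _ _ Q.Φg
  have p3 := pullE_mem (k := ℂ) Q.ΦR _ _ Q.Φg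
  unfold Vale.Agent.P275LO.pe at hm
  generalize pullE ℂ Q.ΦR _ _ Q.Φg = P at hm p1 p2 p3
  clear_value L
  refine ⟨cj L P, KG.comp_mem_deg (add_zero 0) l3 (KG.comp_mem_deg (add_zero 0) p3
    (KG.inv_mem_deg (add_zero 0) l3)), ⟨m, ?_⟩, fun w w' hw => ?_, fun w => ?_⟩
  · have := congrArg (cj L) hm
    rwa [map_pow, map_sub, map_one, map_zero] at this
  · show mul Q.g _ ≫ L ≫ P ≫ inv L = (L ≫ P ≫ inv L) ≫ mul Q.g _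
    rw [← reassoc_of% l1, ← reassoc_of% p1, e w w' hw, Category.assoc, Category.assoc]
    refine congrArg (fun t => L ≫ P ≫ t) ?_
    rw [IsIso.comp_inv_eq, Category.assoc, ← l1, IsIso.inv_hom_id_assoc]
  · show act (L ≫ P ≫ inv L) _ = _
    rw [act_comp, act_comp, l2, p2, e w _ (Q.Ψ_spec w), ← l2, ← act_comp, IsIso.hom_inv_id,
      act_id]

/-- The base map of the Higgs end. -/
def hY : Q.Y ⟶ V := (Q.iY ≫ Q.g) ≫ Q.r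

/-- Restriction to the Higgs end. -/
def rY : H ℂ Q.T →ₐ[ℂ] H ℂ Q.Y := (pb Q.iY).comp (pb Q.iR)

/-- The trace of the restriction to `P`. -/
def GT (w : H ℂ Q.T) : H ℂ Q.XH := Q.G (pb Q.iP (pb Q.i0 w))

theorem rY_def (w : H ℂ Q.T) : Q.rY w = pb Q.iY (pb Q.iR w) := AlgHom.comp_apply _ _ _

theorem rY_eq (w : H ℂ Q.T) : Q.rY w = pb Q.f0 (pb Q.i0 w) := by
  rw [rY_def, pb_comp, pb_comp, Q.sq0]

theorem exists_ρ : ∃ ρ : End (K ℂ Q.g) →ₐ[ℂ] End (K ℂ Q.hY),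
    (∀ a, ρ (mul Q.g a) = mul Q.hY (pb Q.iY a)) ∧
    (∀ u a, act (ρ u) (pb Q.iY a) = pb Q.iY (act u a)) ∧
    ∀ u ∈ KG.deg ℂ _ _ 0, ρ u ∈ KG.deg ℂ _ _ 0 := by
  have cl : Cl Q.g Q.S0 Q.iY := ⟨Q.prg, Q.clS, Q.indY, Q.rngY⟩
  have e : (Q.iY ≫ Q.g) ≫ Q.r = Q.hY := rfl
  refine ⟨(pushA Q.r e).comp cl.resA, fun a => ?_, fun u a => ?_, fun u hu => ?_⟩
  · rw [AlgHom.comp_apply, cl.resA_mul, pushA_apply, pusho_mul]
  · rw [AlgHom.comp_apply, pushA_apply, act_pusho, cl.resA_apply, cl.act_res]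
  · rw [AlgHom.comp_apply, pushA_apply]
    exact pusho_mem Q.r e e (cl.resA_mem hu)

theorem exists_V : ∃ U : End (K ℂ Q.hY), U ∈ KG.deg ℂ _ _ 0 ∧ (∃ m : ℕ, (1 - U) ^ m = 0) ∧
    (∀ w w', pb Q.Φ (pb Q.jT w) = pb Q.jT w' →
      U * mul Q.hY (Q.rY w) = mul Q.hY (Q.rY w') * U) ∧
    ∀ w, act U (Q.rY w) = Q.rY (Q.Ψ w) := by
  obtain ⟨U, U0, ⟨m, Um⟩, U1, U2⟩ := Q.exists_U
  obtain ⟨ρ, ρ1, ρ2, ρ3⟩ := Q.exists_ρ
  refine ⟨ρ U, ρ3 U U0, ⟨m, ?_⟩, fun w w' hw => ?_, fun w => ?_⟩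
  · have := congrArg ρ Um
    rwa [map_pow, map_sub, map_one, map_zero] at this
  · rw [rY_def, rY_def, ← ρ1, ← ρ1, ← map_mul, ← map_mul, U1 w w' hw]
  · rw [rY_def, rY_def, ρ2, U2]

theorem exists_LM [Nice X] (hα : α ∈ Hd ℂ X 2) {γ0 : K ℂ Q.e0 ⟶ K ℂ (𝟙 Q.Y)}
    (G0 : Gy Q.e0 (Q.rY Q.Δ) (2 * Q.N : ℕ) γ0) :
    ∃ (L : K ℂ h ⟶ K ℂ Q.hY) (M : K ℂ Q.hY ⟶ K ℂ h),
      L ∈ KG.deg ℂ _ _ (2 * Q.N : ℕ) ∧ M ∈ KG.deg ℂ _ _ (-(2 * Q.N + 2)) ∧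
      mul h α ≫ L = L ≫ mul Q.hY (Q.rY Q.e) ∧ mul Q.hY (Q.rY Q.e) ≫ M = M ≫ mul h α ∧
      (∀ z, L ≫ mul Q.hY (Q.rY z) ≫ M = mul h (pb Q.s0 (Q.GT (Q.Δ * z)))) ∧
      (∀ a, act L a = act γ0 (pb Q.π0 a)) ∧ ∀ w, act M (Q.rY w) = pb Q.s0 (Q.GT w) := by
  have := nice_cl Q.clP
  have := nice_cl Q.cl0
  obtain ⟨ψ0, m0, c0, t0, a0⟩ :=
    exists_tr Q.car0 Q.lh Q.dg Q.c_mem Q.top Q.G Q.G_mul Q.G_top Q.G_low
  rw [Q.dg_top] at m0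
  have hr : Q.π0 ≫ h = Q.e0 ≫ Q.hY := Q.hr
  obtain ⟨gm, g0, g1, -, g2, g3⟩ := push_tr γ0 Q.hY rfl
  obtain ⟨tr, r0, r1, r2, -, r3⟩ := push_tr ψ0 h hr
  have y1 : ∀ w, pb Q.e0 (Q.rY w) = pb Q.k0 (pb Q.iP (pb Q.i0 w)) := fun w => by
    rw [rY_eq, pb_comp Q.e0, pb_comp Q.k0, Q.sqk0]
  have y3 : pb Q.e0 (Q.rY Q.e) = pb Q.π0 α := by
    rw [y1, Q.eP, pb_comp, ← Q.car0.sq, ← pb_comp, Q.eH0]
  have g1 := fun b => g1 _ _ (G0.prj b)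
  have g2 := g2 _ G0.back
  have p1 := pullo_mul (k := ℂ) Q.π0 hr
  have p2 := pullo_mul (k := ℂ) Q.e0 (h := Q.hY) rfl
  refine ⟨pullo ℂ Q.π0 hr ≫ gm, pullo ℂ Q.e0 rfl ≫ tr,
    KG.comp_mem_deg (zero_add _) (pullo_mem _ _) (g0 _ G0.mem),
    KG.comp_mem_deg (zero_add _) (pullo_mem _ _) (r0 _ m0), ?_, ?_, fun z => ?_, fun a => ?_,
    fun w => ?_⟩
  · rw [← reassoc_of% p1, ← y3, g1, Category.assoc]
  · rw [← reassoc_of% p2, y3, r1 _ _ (c0 α hα), Category.assoc]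
  · rw [Category.assoc, ← reassoc_of% g1, reassoc_of% g2, ← reassoc_of% mul_mul, ← map_mul,
      ← map_mul, y1]
    exact r2 _ _ (t0 _)
  · rw [act_comp, act_pullo, g3]
  · rw [act_comp, act_pullo, r3, y1]
    exact a0 _

theorem lie_V {U : End (K ℂ Q.hY)} {m : ℕ} (Um : (1 - U) ^ m = 0)
    (U1 : ∀ w w', pb Q.Φ (pb Q.jT w) = pb Q.jT w' →
      U * mul Q.hY (Q.rY w) = mul Q.hY (Q.rY w') * U) :
    ⁅mul Q.hY (Q.rY Q.e), ⁅mul Q.hY (Q.rY Q.e), aeval U (qq m)⁆⁆ = (2 : ℂ) • mul Q.hY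
      (Q.rY ((Q.δ - (1 / 2 : ℂ) • Q.δ') * (Q.δ - (1 / 2 : ℂ) • Q.δ'))) := by
  have h1 := U1 _ _ Q.Φe
  have h2 := U1 _ _ Q.Φδ
  have h3 := U1 _ _ Q.Φδ'
  have hc : Commute (Q.rY Q.e) (Q.rY (Q.δ - (1 / 2 : ℂ) • Q.δ')) :=
    commute_of_even (pb_mem Q.iY (pb_mem Q.iR Q.e_mem)) even_two _
  have hc := (hc.map (mul Q.hY)).eq.symm
  let F := (mul Q.hY).comp Q.rY
  change U * F _ = F _ * U at h1 h2 h3
  change F _ * F _ = F _ * F _ at hc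
  change ⁅F _, ⁅F _, _⁆⁆ = (2 : ℂ) • F _
  clear_value F
  rw [map_add] at h1 h2
  rw [map_sub, map_smul] at hc
  rw [map_mul, map_sub, map_smul]
  exact lie_qq h1 h2 h3 Um hc

theorem low [Nice X] {γ : K ℂ Q.iP ⟶ K ℂ (𝟙 Q.T0)} {γ1 : K ℂ Q.e1 ⟶ K ℂ (𝟙 Q.Y1)}
    (m1 : γ1 ∈ KG.deg ℂ _ _ (2 * Q.N : ℕ)) (b1 : ∀ b, pb Q.f1 (act γ b) = act γ1 (pb Q.k1 b))
    {WX WY} (W : Q.WL WX WY) (m : ℕ) {k : ℤ} {a : H ℂ Q.XH} (ha : pb Q.s0 a ∈ WX k) {w : H ℂ Q.T}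
    (hw : pb Q.i0 w = act γ (pb Q.p a)) : pb Q.s0 (Q.GT (aeval Q.Ψ (qq m) w)) ∈ WX (k - 4) := by
  have := nice_cl Q.clP
  have := nice_cl Q.cl1
  obtain ⟨ψ1, n1, -, -, a1⟩ :=
    exists_tr Q.car1 Q.lh Q.dg Q.c_mem Q.top Q.G Q.G_mul Q.G_top Q.G_low
  rw [Q.dg_top] at n1
  have s01 : pb (k := ℂ) Q.s0 = pb Q.s1 := pb_homotopic Q.htp
  have e3 : pb Q.f1 (pb Q.i0 w) ∈ WY (k - 4 + 2 * Q.N + 4) := by
    rw [hw, b1, pb_comp, ← Q.car1.sq, ← pb_comp, ← s01, show k - 4 + 2 * Q.N + 4 = k + 2 * Q.N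
      by ring]
    exact W.gy γ1 m1 k _ ha
  have e4 := aeval_low (u := Q.Ψ)
    (W := fun j => (WY j).comap ((pb Q.f1).toLinearMap ∘ₗ (pb Q.i0).toLinearMap))
    (fun j => Submodule.comap_mono (W.mono j))
    (fun j x hx => W.hk x _ (Q.Ψ_spec x) j hx) (qq_dvd m) _ e3
  rw [add_sub_cancel_right] at e4
  have e5 := W.tr ψ1 n1 _ _ e4
  rw [s01, GT, ← a1, pb_comp Q.k1, Q.sqk1, ← pb_comp]
  exact e5

theorem act_aeval {U : End (K ℂ Q.hY)} (U2 : ∀ w, act U (Q.rY w) = Q.rY (Q.Ψ w)) (q : ℂ[X])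
    (w : H ℂ Q.T) : act (aeval U q) (Q.rY w) = Q.rY (aeval Q.Ψ q w) := by
  rw [← actA_apply, ← aeval_algHom_apply]
  exact aeval_int Q.rY.toLinearMap U2 _ _

theorem oper [Nice X] (hα : α ∈ Hd ℂ X 2) : ∃ D : End (K ℂ h), D ∈ KG.deg ℂ _ _ (-2) ∧
    ⁅mul h α, ⁅mul h α, D⁆⁆ = (2 * Q.γ) • mul h α ∧
    ∀ WX WY, Q.WL WX WY → ∀ k, ∀ a ∈ WX k, act D a ∈ WX (k - 4) := by
  obtain ⟨U, U0, ⟨m, Um⟩, U1, U2⟩ := Q.exists_V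
  obtain ⟨γ, -, bc⟩ := gys Q.clP Q.indW Q.rngW (pb_mem Q.i0 Q.Δ_mem) Q.ΔW
  obtain ⟨γ0, G0, b0⟩ := bc Q.Y Q.P0 Q.f0 Q.e0 Q.k0 Q.cl0 Q.rng0 Q.sqk0
  obtain ⟨γ1, G1, b1⟩ := bc Q.Y1 Q.P1 Q.f1 Q.e1 Q.k1 Q.cl1 Q.rng1 Q.sqk1
  rw [← rY_eq] at G0
  obtain ⟨L, M, L0, M0, hL, hM, hz, aL, aM⟩ := Q.exists_LM hα G0
  refine ⟨sw L M (aeval U (qq m)), ?_, ?_, fun WX WY W k a ha => ?_⟩
  · exact KG.comp_mem_deg (by push_cast; ring) L0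
      (KG.comp_mem_deg (zero_add _) (aeval_mem U0 _) M0)
  · rw [sw_lie hL hM, sw_lie hL hM, Q.lie_V Um U1, map_smul, mul_smul, sw_apply, hz, GT, Q.tr,
      map_smul, map_smul, Q.eH0]
  · obtain ⟨a, rfl⟩ := Q.surH a
    obtain ⟨w, hw⟩ := Q.sur0 (act γ (pb Q.p a))
    have e1 : act L (pb Q.s0 a) = Q.rY w := by
      rw [aL, rY_eq, hw, b0, pb_comp, pb_comp, Q.car0.sq]
    rw [sw_apply, act_comp, act_comp, e1, Q.act_aeval U2, aM]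
    exact Q.low G1.mem b1 W m ha hw

end Pkg

end P275OP
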