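import Mathlib

/-! The ring identity behind the operator `D`: the double commutator of `e` with the square of
the logarithm of a unipotent `U`. -/

open Polynomial

noncomputable section

namespace P275OP

variable {R : Type*} [Ring R] [Algebra ℂ R]

theorem aeval_comm {U e d d' : R} (h1 : U * e = (e + d) * U) (h2 : U * d = (d + d') * U)
    (h3 : U * d' = d' * U) (f : ℂ[X]) :
    aeval U f * e = e * aeval U f + d * (U * aeval U (derivative f)) +
      (1 / 2 : ℂ) • (d' * (U * (U * aeval U (derivative (derivative f))))) := by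
  induction f using Polynomial.induction_on with
  | C a => simp [Algebra.commutes]
  | add f g hf hg => simp only [map_add, add_mul, mul_add, smul_add, hf, hg]; abel
  | monomial m a ih =>
    rw [pow_succ', mul_left_comm]
    generalize C a * X ^ m = f at ih
    simp only [derivative_mul, derivative_X, one_mul, map_add, map_mul, aeval_X]
    rw [mul_assoc, ih]
    simp only [mul_add, mul_smul_comm, ← mul_assoc, h1, h2, h3, add_mul, smul_add]
    module

/-- The truncated logarithm. -/
def lg (m : ℕ) : ℂ[X] := -∑ j ∈ Finset.range m, C (1 / (j + 1 : ℂ)) * (1 - X) ^ (j + 1)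

theorem lg_dvd (m : ℕ) : 1 - X ∣ lg m :=
  (Finset.dvd_sum fun j _ => (dvd_pow_self _ j.succ_ne_zero).mul_left _).neg_right

theorem X_mul_lg (m : ℕ) : X * derivative (lg m) = 1 - (1 - X) ^ m := by
  induction m with
  | zero => simp [lg]
  | succ m ih =>
    have h : (C (1 / (m + 1 : ℂ)) : ℂ[X]) * C ((m + 1 : ℕ) : ℂ) = 1 := by
      rw [← C_mul, Nat.cast_succ, one_div_mul_cancel (Nat.cast_add_one_ne_zero m), C_1]
    rw [lg, Finset.sum_range_succ, neg_add, ← lg, derivative_add, mul_add, ih, derivative_neg,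
      derivative_C_mul, derivative_pow, ← mul_assoc, ← mul_assoc, h]
    simp only [derivative_sub, derivative_one, derivative_X, Nat.add_sub_cancel]
    ring

theorem lg_comm {U e d d' : R} (h1 : U * e = (e + d) * U) (h2 : U * d = (d + d') * U)
    (h3 : U * d' = d' * U) {m : ℕ} (hm : (1 - U) ^ m = 0) :
    aeval U (lg (m + 1)) * e = e * aeval U (lg (m + 1)) + (d - (1 / 2 : ℂ) • d') := by
  have a1 : U * aeval U (derivative (lg (m + 1))) = 1 := by
    simpa [pow_succ, hm] using congrArg (aeval U) (X_mul_lg (m + 1))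
  have a2 : U * aeval U (derivative (derivative (lg (m + 1)))) =
      -aeval U (derivative (lg (m + 1))) := by
    have := congrArg (fun p => aeval U (derivative p)) (X_mul_lg (m + 1))
    rw [derivative_mul, derivative_sub, derivative_pow] at this
    simp only [derivative_X, one_mul, map_add, map_mul, aeval_X, map_sub, map_one, map_pow,
      Nat.add_sub_cancel, hm, mul_zero, zero_mul, derivative_one, map_zero, sub_zero] at this
    exact eq_neg_of_add_eq_zero_right this
  rw [aeval_comm h1 h2 h3, a2, mul_neg, a1]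
  simp [sub_eq_add_neg, add_assoc]

theorem lie_sq {e L a : R} (h : L * e = e * L + a) (hc : a * e = e * a) :
    ⁅e, ⁅e, L * L⁆⁆ = (2 : ℂ) • (a * a) := by
  have h1 : e * L = L * e - a := by rw [h, add_sub_cancel_right]
  have h2 : ⁅e, L * L⁆ = -(a * L + L * a) := by
    rw [Ring.lie_def, ← mul_assoc, h1, sub_mul, mul_assoc L e, h1]
    noncomm_ring
  rw [h2, Ring.lie_def, two_smul]
  have h3 : e * (a * L) = a * L * e - a * a := by
    rw [← mul_assoc, ← hc, mul_assoc, h1]; noncomm_ring
  have h4 : e * (L * a) = L * a * e - a * a := by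
    rw [← mul_assoc, h1, sub_mul, mul_assoc, ← hc]; noncomm_ring
  rw [mul_neg, mul_add, h3, h4]
  noncomm_ring

/-- The polynomial `q`, the square of the truncated logarithm. -/
def qq (m : ℕ) : ℂ[X] := lg (m + 1) * lg (m + 1)

theorem qq_dvd (m : ℕ) : (1 - X) * (1 - X) ∣ qq m := mul_dvd_mul (lg_dvd _) (lg_dvd _)

theorem lie_qq {U e d d' : R} (h1 : U * e = (e + d) * U) (h2 : U * d = (d + d') * U)
    (h3 : U * d' = d' * U) {m : ℕ} (hm : (1 - U) ^ m = 0)
    (hc : (d - (1 / 2 : ℂ) • d') * e = e * (d - (1 / 2 : ℂ) • d')) :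
    ⁅e, ⁅e, aeval U (qq m)⁆⁆ =
      (2 : ℂ) • ((d - (1 / 2 : ℂ) • d') * (d - (1 / 2 : ℂ) • d')) := by
  rw [qq, map_mul]
  exact lie_sq (lg_comm h1 h2 h3 hm) hc

end P275OP
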