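import Vale.Agent.P275OP.Gys
import Vale.Agent.P275OP.Ring

/-! The package of spaces, maps and classes from which the operator `D` is built. -/

open CategoryTheory Topology Set Function P275S

noncomputable section

set_option backward.isDefEq.respectTransparency false

namespace P275OP

variable {X V B E E' : TopCat.{0}}

/-- The classes `c` restrict to a basis of the cohomology of every fibre of the proper map `p`. -/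
structure LHB (p : E ⟶ B) {ι : Type} [Fintype ι] (c : ι → H ℂ E) : Prop where
  pr : IsProperMap p
  bas : ∀ y : B, ∃ (F : TopCat.{0}) (i : F ⟶ E), IsInducing i ∧ range i = p ⁻¹' {y} ∧
    Bijective fun r : ι → ℂ => ∑ j, r j • pb i (c j)

/-- The square `π ≫ s = k ≫ p` of embeddings `s`, `k` is cartesian. -/
structure Car (p : E ⟶ B) (s : X ⟶ B) (π : E' ⟶ X) (k : E' ⟶ E) : Prop where
  es : IsEmbedding s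
  ek : IsEmbedding k
  rng : range k = p ⁻¹' range s
  sq : π ≫ s = k ≫ p

/-- `T` = all parabolic objects, `Tp` = the domain of the Hecke map `Φ`, `T0` = nilpotent
residue, `P` = no pole, `XH` = Hodge moduli space, `R` = Higgs objects over the ray, `Y`, `P0` =
Higgs objects in `T0`, `P`, and `Y1`, `P1` = flat objects in `T0`, `P`. -/
structure Pkg (h : X ⟶ V) (α : H ℂ X) : Type 1 where
  (T Tp T0 P W XH R Rp S Y P0 Y1 P1 : TopCat.{0})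
  [nT0 : Nice T0]
  [nXH : Nice XH]
  [nR : Nice R]
  [nY : Nice Y]
  [nY1 : Nice Y1]
  -- Hecke
  jT : Tp ⟶ T
  Φ : Tp ⟶ Tp
  bijT : Bijective (pb (k := ℂ) jT)
  (e δ δ' : H ℂ T)
  e_mem : e ∈ Hd ℂ T 2
  δ_mem : δ ∈ Hd ℂ T 2
  δ'_mem : δ' ∈ Hd ℂ T 2
  Φe : pb Φ (pb jT e) = pb jT (e + δ)
  Φδ : pb Φ (pb jT δ) = pb jT (δ + δ')
  Φδ' : pb Φ (pb jT δ') = pb jT δ'
  -- Gysin
  i0 : T0 ⟶ T
  sur0 : Surjective (pb (k := ℂ) i0)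
  iP : P ⟶ T0
  clP : IsClosedEmbedding iP
  jW : W ⟶ T0
  indW : IsInducing jW
  rngW : range jW = (range iP)ᶜ
  N : ℕ
  Δ : H ℂ T
  Δ_mem : Δ ∈ Hd ℂ T (2 * N : ℕ)
  ΔW : pb jW (pb i0 Δ) = 0
  -- Leray-Hirsch and the trace formula
  p : P ⟶ XH
  (s0 s1 : X ⟶ XH)
  htp : s0.hom.Homotopic s1.hom
  surH : Surjective (pb (k := ℂ) s0)
  ι : Type
  [fin : Fintype ι]
  c : ι → H ℂ P
  dg : ι → ℤ
  c_mem : ∀ j, c j ∈ Hd ℂ P (dg j)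
  lh : LHB p c
  top : ι
  dg_top : dg top = 2 * N + 2
  G : H ℂ P →ₗ[ℂ] H ℂ XH
  G_mul : ∀ v a, G (v * pb p a) = G v * a
  G_top : G (c top) = 1
  G_low : ∀ j, j ≠ top → G (c j) = 0
  eH : H ℂ XH
  eH0 : pb s0 eH = α
  eP : pb iP (pb i0 e) = pb p eH
  γ : ℂ
  γ_ne : γ ≠ 0
  tr : G (pb iP (pb i0 (Δ * ((δ - (1 / 2 : ℂ) • δ') * (δ - (1 / 2 : ℂ) • δ'))))) = γ • eH
  -- the ray
  iR : R ⟶ T
  jR : Rp ⟶ R
  embR : IsEmbedding jR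
  isoR : IsIso (pullI ℂ jR)
  kR : Rp ⟶ Tp
  sqR : kR ≫ jT = jR ≫ iR
  ΦR : Rp ⟶ Rp
  sqΦ : ΦR ≫ kR = kR ≫ Φ
  g : R ⟶ S
  prg : IsProperMap g
  O : Set S
  opO : IsOpen O
  rngR : range jR = g ⁻¹' O
  Φg : ΦR ≫ jR ≫ g = jR ≫ g
  b : ℤ
  fib : ∀ s ∈ O, ∃ (F : TopCat.{0}) (i : F ⟶ Rp) (φ : F ⟶ F), IsInducing i ∧
    range i = (jR ≫ g) ⁻¹' {s} ∧ φ ≫ i = i ≫ ΦR ∧ φ.hom.Homotopic (ContinuousMap.id F) ∧
    ∀ m, b < m → Hd ℂ F m = ⊥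
  -- the Higgs end
  iY : Y ⟶ R
  indY : IsInducing iY
  S0 : Set S
  clS : IsClosed S0
  rngY : range iY = g ⁻¹' S0
  f0 : Y ⟶ T0
  sq0 : f0 ≫ i0 = iY ≫ iR
  e0 : P0 ⟶ Y
  cl0 : IsClosedEmbedding e0
  rng0 : range e0 = f0 ⁻¹' range iP
  k0 : P0 ⟶ P
  sqk0 : k0 ≫ iP = e0 ≫ f0
  π0 : P0 ⟶ X
  car0 : Car p s0 π0 k0
  r : S ⟶ V
  hr : π0 ≫ h = e0 ≫ (iY ≫ g) ≫ r
  -- the flat end
  f1 : Y1 ⟶ T0
  e1 : P1 ⟶ Y1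
  cl1 : IsClosedEmbedding e1
  rng1 : range e1 = f1 ⁻¹' range iP
  k1 : P1 ⟶ P
  sqk1 : k1 ≫ iP = e1 ≫ f1
  π1 : P1 ⟶ X
  car1 : Car p s1 π1 k1

attribute [instance] Pkg.nT0 Pkg.nXH Pkg.nR Pkg.nY Pkg.nY1 Pkg.fin

variable {h : X ⟶ V} {α : H ℂ X}

/-- The weight estimates on the flat end. -/
structure Pkg.WL (Q : Pkg h α) (WX : ℤ → Submodule ℂ (H ℂ X))
    (WY : ℤ → Submodule ℂ (H ℂ Q.Y1)) : Prop where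
  mono : ∀ k, WY (k - 2) ≤ WY k
  gy : ∀ γ ∈ KG.deg ℂ (K ℂ Q.e1) (K ℂ (𝟙 Q.Y1)) (2 * Q.N : ℕ), ∀ k, ∀ a ∈ WX k,
    act γ (pb Q.π1 a) ∈ WY (k + 2 * Q.N)
  tr : ∀ ψ ∈ KG.deg ℂ (K ℂ Q.π1) (K ℂ (𝟙 X)) (-(2 * Q.N + 2)), ∀ k, ∀ v ∈ WY (k + 2 * Q.N),
    act ψ (pb Q.e1 v) ∈ WX k
  hk : ∀ w w' : H ℂ Q.T, pb Q.Φ (pb Q.jT w) = pb Q.jT w' → ∀ k, pb Q.f1 (pb Q.i0 w) ∈ WY k →
    pb Q.f1 (pb Q.i0 (w' - w)) ∈ WY (k - 2)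

end P275OP
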