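import Vale.Agent.P275RS.Res
import Vale.Agent.P275S.Cls
import Vale.Agent.P275S.AS

/-! Classes with support in a closed set: they commute with all classes. -/

open CategoryTheory Limits TopologicalSpace Topology CochainComplex CochainComplex.HomComplex
open P275S P275RS P275PV

noncomputable section

set_option backward.isDefEq.respectTransparency false

namespace P275OP

variable {k : Type} [Field k] {X Y Z : TopCat.{0}} {S : Set Y}

/-- Sections with support in `S`, on the graded homotopy category. -/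
abbrev gK (k : Type) [Field k] (S : Set Y) : KG k (Sh k Y) ⥤ KG k (Sh k Y) := KG.map k (GamS k S)

/-- Forget the support. -/
def ιC (S : Set Y) (F : Cx k Y) : (mapC (GamS k S)).obj F ⟶ F where
  f n := (suppData S (F.X n)).ι
  comm' _ _ _ := hom_ext fun _ _ => rfl

/-- Forget the support. -/
def ιK (S : Set Y) (A : KG k (Sh k Y)) : (gK k S).obj A ⟶ A := KG.hom k (ιC S A.c)

theorem ιK_mem (A : KG k (Sh k Y)) : ιK S A ∈ KG.deg k _ _ 0 := KG.hom_mem_deg _

theorem ιK_nat {A B : KG k (Sh k Y)} (f : A ⟶ B) : (gK k S).map f ≫ ιK S B = ιK S A ≫ f := by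
  induction f using KG.ind with
  | h0 => simp
  | hadd x y hx hy => simp [hx, hy]
  | hmk n z =>
    rw [KG.map_mk]
    refine (KG.mk_comp_hom k _ _).trans (Eq.trans ?_ (KG.hom_comp_mk k _ _).symm)
    congr 1
    ext p q h
    simp only [Cocycle.postcomp, Cocycle.precomp, Cocycle.mk_coe, Cochain.comp_zero_cochain_v,
      Cochain.zero_cochain_comp_v, Cochain.ofHom_v]
    exact hom_ext fun _ _ => rfl

theorem on_gK (hS : IsClosed S) {A : KG k (Sh k Y)} (hA : InjC A.c) : On S ((gK k S).obj A).c :=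
  ⟨hA.gamS hS, fun n U s => by
    rw [← supp_app_of_mono (suppData S (A.c.X n)).ι]
    exact (suppData S (A.c.X n)).ι_mem U s⟩

/-- A cocycle whose values are supported in `S`. -/
def zlift {F G : Cx k Y} {n : ℤ} (z : Cocycle F G n)
    (h : ∀ p q hpq U s, supp (app (z.1.v p q hpq) U s) ⊆ S) :
    Cocycle F ((mapC (GamS k S)).obj G) n :=
  Cocycle.mk (Cochain.mk fun p q hpq => (suppData S (G.X q)).lift (z.1.v p q hpq) (h p q hpq))
    (n + 1) rfl (by
      ext p q hpq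
      have := Cochain.congr_v (z.δ_eq_zero (n + 1)) p q hpq
      rw [δ_v n (n + 1) rfl _ p q hpq (q - 1) (p + 1) rfl rfl] at this ⊢
      rw [← cancel_mono (suppData S (G.X q)).ι]
      refine Eq.trans ?_ (this.trans zero_comp.symm)
      rw [Preadditive.add_comp, Linear.units_smul_comp]
      rfl)

theorem hom_clsC {F : Cx k Y} (c : sec (F.X 0) ⊤) (hc : app (F.d 0 (0 + 1)) ⊤ c = 0) :
    KG.hom k (clsC c hc) = gcl c hc :=
  (mk_eq_gcl _).trans (gcl_congr (ev_clsC c hc) _)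

theorem exists_gcl_comp {F G : Cx k Y} (i : F ⟶ G) [QuasiIso ((mapC (Gam k ⊤)).map i)] {n : ℤ}
    {x : kk k Y ⟶ KG.of G} (hx : x ∈ KG.deg k _ _ n) :
    ∃ (c : sec (F.X n) ⊤) (hc : app (F.d n (n + 1)) ⊤ c = 0), gcl c hc ≫ KG.hom k i = x := by
  obtain ⟨c, hc, rfl⟩ := exists_gcl hx
  obtain ⟨u, hu, t, ht⟩ := gam_surj i c hc
  refine ⟨u, hu, ?_⟩
  rw [gcl_comp_hom, eq_comm, gcl_eq_iff _ _ _ _ (n - 1) (by simp)]
  exact ⟨t, by rw [← ht, add_sub_cancel_left]⟩

theorem sup_comm [Nice Y] (hS : IsClosed S) {N : ℕ} {τ : IK k Y ⟶ (gK k S).obj (IK k Y)}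
    (hτ : τ ∈ KG.deg k _ _ ((2 * N : ℕ) : ℤ)) (b : H k Y) : b ≫ τ = τ ≫ (gK k S).map b := by
  induction b using KG.ind_deg with
  | h0 => simp
  | hadd x y hx hy => simp [hx, hy]
  | hmk m b hb =>
  obtain ⟨θ, hθ⟩ := KG.exists_lift_hom (k := k) (clsC (asOne k Y) d_asOne) (injC_I k Y) (ιI k Y)
  have q1 : QuasiIso θ := by
    obtain ⟨h⟩ := (KG.hom_eq_iff k _ _).1 ((KG.hom_comp k _ _).trans hθ)
    have : QuasiIso (clsC (asOne k Y) d_asOne ≫ θ) := (P275S.quasiIso_iff _).2 fun x =>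
      (qisAt_of_homotopy h x).2 (qisAt_of_quasiIso _ x)
    exact quasiIso_of_comp_left (clsC (asOne k Y) d_asOne) θ
  have q2 := qis_gamS flqC_AS (flqC_I k Y) θ hS
  have q3 := qis_gam (flqC_AS.gamS hS).softC ((flqC_I k Y).gamS hS).softC
    ((mapC (GamS k S)).map θ) ⊤
  have q4 := qis_gam softC_AS (softC_I k Y) θ ⊤
  have hJ := (on_gK hS (A := IK k Y) (injC_I k Y)).1
  obtain ⟨t, ht, e1⟩ := exists_gcl_comp ((mapC (GamS k S)).map θ)
    (KG.comp_mem_deg (zero_add _) unit_mem hτ)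
  obtain ⟨β, hβ, e2⟩ := exists_gcl_comp θ (KG.comp_mem_deg (zero_add _) unit_mem hb)
  rcases lt_or_ge m 0 with hm | hm
  · have : b = 0 := unit_cancel (injC_I k Y) (by
      rw [← e2, gcl_congr (a_neg hm β), (gcl_eq_zero_iff _ _ (m - 1) (by simp)).2 ⟨0, map_zero _⟩]
      simp)
    simp [this]
  obtain ⟨m, rfl⟩ := Int.eq_ofNat_of_zero_le hm
  obtain ⟨f, hf⟩ := am_surj _ ⊤ (app (suppData S _).ι ⊤ t)
  obtain ⟨g, rfl⟩ := am_surj _ ⊤ β
  have hdf : ∀ x, Nr ((2 * N : ℕ) + 1) x (ASL.D k Y f) := fun x => by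
    have := congrArg (app (suppData S _).ι ⊤) ht
    refine am_eq_zero.1 ((AS_d_mk (by omega) rfl ⊤ f).symm.trans ?_) x trivial
    rw [hf]
    exact this
  have hdg : ∀ x, Nr (m + 1) x (ASL.D k Y g) := fun x =>
    am_eq_zero.1 ((AS_d_mk (by omega) rfl ⊤ g).symm.trans hβ) x trivial
  let L := zlift (S := S) (Cocycle.mk (asL (2 * N) f) _ rfl (δ_asL _ f hdf)) fun p q hpq U s => by
    rcases lt_or_ge p 0 with hp | hp
    · simp [a_neg hp s]
    obtain ⟨p, rfl⟩ := Int.eq_ofNat_of_zero_le hp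
    obtain ⟨g, rfl⟩ := am_surj _ U s
    intro x hx
    by_contra hn
    obtain ⟨V, hV, xV, h0⟩ := (not_mem_supp (s := am _ ⊤ f) (x := x) trivial).1 fun a =>
      hn ((suppData S _).ι_mem ⊤ t (hf ▸ a))
    refine hx.2 (U ⊓ V) inf_le_left ⟨hx.1, xV⟩ ?_
    rw [Cocycle.mk_coe, asL_mk, res_am, am_eq_zero]
    intro y hy
    rw [← hpq, add_comm]
    exact nr_cupL (by omega) (am_eq_zero.1 h0 y hy.2) g
  let R := Cocycle.mk (asR m g) _ rfl (δ_asR _ g hdg)
  have c0 : gcl (asOne k Y) d_asOne ≫ KG.hom k θ = unit k Y := by rw [← hom_clsC]; exact hθ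
  have c1 : KG.hom k θ ≫ b = KG.mk k R ≫ KG.hom k θ :=
    KG.cancel_qis (clsC (asOne k Y) d_asOne) (injC_I k Y) (by
      rw [hom_clsC, ← Category.assoc, c0, ← Category.assoc, gcl_comp_mk (zero_add _), ← e2]
      exact congrArg (· ≫ _) (gcl_congr (asR_one m g).symm _))
  have c2 : KG.hom k θ ≫ τ = KG.mk k L ≫ (gK k S).map (KG.hom k θ) :=
    KG.cancel_qis (clsC (asOne k Y) d_asOne) hJ (by
      rw [hom_clsC, ← Category.assoc, c0, ← Category.assoc, gcl_comp_mk (zero_add _), ← e1,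
        KG.map_hom]
      exact congrArg (· ≫ _) (gcl_congr (Subtype.ext (hf.symm.trans (asL_one _ f).symm)) _))
  have c3 : KG.mk k R ≫ KG.mk k L = KG.mk k L ≫ (gK k S).map (KG.mk k R) := by
    rw [KG.map_mk]
    refine (KG.mk_comp k rfl _ _).trans (Eq.trans ?_ (KG.mk_comp k (add_comm _ _) _ _).symm)
    congr 1
    ext p q hpq
    have := Cochain.congr_v (asR_asL (2 * N) m f g (add_comm _ _) rfl) p q hpq
    rw [Int.negOnePow_even _ (by simp [parity_simps]), one_smul,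
      Cochain.comp_v _ _ _ p (p + m) q rfl (by omega),
      Cochain.comp_v _ _ _ p (p + (2 * N : ℕ)) q rfl (by omega)] at this
    rw [zcomp_coe, zcomp_coe, Cochain.comp_v _ _ _ p (p + m) q rfl (by omega),
      Cochain.comp_v _ _ _ p (p + (2 * N : ℕ)) q rfl (by omega),
      ← cancel_mono (suppData S ((AS k Y).X q)).ι]
    exact this
  refine KG.cancel_qis θ hJ ?_
  have c4 := congrArg (gK k S).map c1
  rw [Functor.map_comp, Functor.map_comp] at c4
  rw [reassoc_of% c1, c2, reassoc_of% c3, reassoc_of% c2]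
  exact congrArg (_ ≫ ·) c4.symm

/-- A class which vanishes on the complement of `S` comes from a class with support in `S`. -/
theorem exists_sup [Nice Y] (hS : IsClosed S) {j : X ⟶ Y} (hj : IsInducing j)
    (hr : Set.range j = Sᶜ) {n : ℤ} {a : H k Y} (ha : a ∈ Hd k Y n) (h0 : pb j a = 0) :
    ∃ τ ∈ KG.deg k (IK k Y) ((gK k S).obj (IK k Y)) n, τ ≫ ιK S (IK k Y) = a := by
  let U : Opens Y := ⟨Sᶜ, hS.isOpen_compl⟩
  obtain ⟨c, hc, e⟩ := exists_gcl (KG.comp_mem_deg (zero_add _) unit_mem ha)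
  have h1 := evK_pb j a
  rw [h0, map_zero, ← Category.assoc, ← e, pullI, gcl_comp_hom, eq_comm,
    gcl_eq_zero_iff _ _ (n - 1) (by simp)] at h1
  obtain ⟨b, hb⟩ := h1
  have q := qis_gam_loc (softC_I k Y) (injC_K j).softC (pullC k j) U fun x hx => by
    obtain ⟨y, rfl⟩ := hr.symm.subset hx
    exact qisAt_pullC hj y
  obtain ⟨w, hw⟩ := (mod_mono_hm_iff ((mapC (Gam k U)).map (pullC k j)) n).1 inferInstance
    (res _ le_top c) ((app_res _ le_top c).trans (by rw [hc, map_zero])) (res _ le_top b)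
    ((app_res _ le_top b).trans ((congrArg _ hb).trans (app_res _ le_top c).symm))
  obtain ⟨w, rfl⟩ := (flqC_I k Y).2 (n - 1) ⊤ U le_top w
  have h2 : res _ (le_top : U ≤ ⊤) (c - app ((I k Y).d (n - 1) n) ⊤ w) = 0 := by
    rw [map_sub, ← app_res, sub_eq_zero]
    exact hw.symm
  have h3 : app ((I k Y).d n (n + 1)) ⊤ (c - app ((I k Y).d (n - 1) n) ⊤ w) = 0 := by
    rw [map_sub, hc, ← app_comp, HomologicalComplex.d_comp_d, app_zero, sub_zero]
  obtain ⟨t, ht⟩ := (suppData S _).exists_ι (s := c - app ((I k Y).d (n - 1) n) ⊤ w) fun x hx =>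
    by_contra fun hn => Set.disjoint_left.1 ((res_eq_zero_iff _ _).1 h2) hx hn
  obtain ⟨τ, hτ, e2⟩ := KG.exists_lift (ιI k Y) (on_gK hS (A := IK k Y) (injC_I k Y)).1
    (gcl_mem (F := (mapC (GamS k S)).obj (I k Y)) t
      ((suppData S _).ι_injective ⊤ ((congrArg _ ht).trans h3)))
  refine ⟨τ, hτ, unit_cancel (injC_I k Y) ?_⟩
  rw [← Category.assoc, unit, e2, ιK, gcl_comp_hom]
  refine Eq.trans (Eq.symm ?_) e
  rw [gcl_eq_iff _ _ _ _ (n - 1) (by simp)]
  exact ⟨w, (sub_sub_cancel _ _).symm.trans (congrArg (c - ·) ht.symm)⟩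

end P275OP
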